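import Vale.Agent.P026Z.TBMain
import Vale.Agent.P026Z.End.Final
import Mathlib.NumberTheory.LSeries.Nonvanishing

/-!
P026: the zero-free half-plane from the implication `TB → MB`.
-/

namespace Vale.Agent.P026Z.Fin

open Vale.Agent.P006 Vale.Agent.P026Z.Poi

theorem zeta_of (h : ∀ S : Sext, TB S → MB S) {s : ℂ} (hs : 11 / 12 < s.re) :
    riemannZeta s ≠ 0 :=
  End.riemannZeta_ne_zero_of_MB (sx 36 (by decide) dvd_rfl) (h _ (TB_sx _ _ _)) hs

theorem LFunction_of (h : ∀ S : Sext, TB S → MB S) {r : ℕ} [NeZero r]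
    (χ : DirichletCharacter ℂ r) {s : ℂ} (hs : 11 / 12 < s.re) (h1 : χ ≠ 1 ∨ s ≠ 1) :
    DirichletCharacter.LFunction χ s ≠ 0 := by
  by_cases hs1 : s = 1
  · exact DirichletCharacter.LFunction_ne_zero_of_one_le_re χ h1 (by simp [hs1])
  · have hr : (r : O) ≠ 0 := by
      rw [← N_eq_zero.ne, N_natCast]
      exact pow_ne_zero _ (NeZero.ne r)
    exact End.LFunction_ne_zero_of_MB
      (sx (36 * r) (mul_ne_zero (by decide) hr) (dvd_mul_right _ _)) (h _ (TB_sx _ _ _)) χ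
      (dvd_mul_left _ _) hs hs1

end Vale.Agent.P026Z.Fin
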