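import Vale.Agent.P026Z.V6.Glue2
import Vale.Agent.P026Z.Sym.Inst0
import Vale.Agent.P026Z.Sym.Tau
import Vale.Agent.P026Z.Sym.PCh
import Vale.Agent.P026Z.Vor.ThmT
import Vale.Agent.P026Z.Vor.V4Fin
import Vale.Agent.P026Z.QLS.Final

/-!
P026: the sextic data and the theta input of the Poisson block, unconditionally.
-/

namespace Vale.Agent.P026Z.Fin

open Vale.Agent.P006 Vale.Agent.P026Z.Poi Vale.Agent.P026Z.Sym

/-- the sextic data with modulus `q`, a nonzero multiple of `36` -/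
noncomputable def sx (q : O) (hq0 : q ≠ 0) (hq : (36 : O) ∣ q) : Sext :=
  sextOf q hq0 hq tauS (fun _ _ hn hb => tauS_eq hn hb) (fun _ hk h => tauS_zero hk h)

theorem sx_q (q : O) (hq0 : q ≠ 0) (hq : (36 : O) ∣ q) : (sx q hq0 hq).q = q := rfl

theorem symHyp' : Vor.SymHyp x6 rho := fun _ hp hs h2 =>
  ⟨pchar_x6 hp hs h2, pchar_rho hp hs h2, fun y => x6_sq' _ y, fun y => (x6_cube _ y).symm⟩

theorem thmT_x6 : V6.ThmT (fun k => Vor.cf TH.th k * Vor.alp k) x6 :=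
  Vor.thmT_of Vor.v4 QLS.qls_mod_rho symHyp'

theorem TB_sx (q : O) (hq0 : q ≠ 0) (hq : (36 : O) ∣ q) : TB (sx q hq0 hq) :=
  V6.TB_of_ThmT _ (V6.vhyp' _ rfl (fun _ _ => rfl) (fun _ _ => rfl)) thmT_x6

end Vale.Agent.P026Z.Fin
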